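import Vale.Agent.P219.Six.Defs
import Vale.Agent.P219.Univ.Geo

/-!
# Jointly smooth normal coordinates: reversal of geodesics and the distance function
-/

open MeasureTheory Set Filter Topology
open scoped ENNReal ContDiff RealInnerProductSpace

namespace Vale.Agent.P219.Six

open Vale.Agent.P219 Vale.Agent.P219.Univ Vale.Agent.P219.Univ.Geo

noncomputable section

variable {n : ℕ} {g : MetricField n} {Exp Log : Space n → Space n → Space n}

/-- The velocity field of the geodesic flow on pairs position, velocity. -/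
def sprayF (g : MetricField n) (p : Space n × Space n) : Space n × Space n :=
  (p.2, -gam g p.1 p.2 p.2)

/-- A curve solving the geodesic equation with velocity `c'`. -/
def IsGeo (g : MetricField n) (c c' : ℝ → Space n) : Prop :=
  ∀ t, HasDerivAt c (c' t) t ∧ HasDerivAt c' (-gam g (c t) (c' t) (c' t)) t

/-- Geodesics with the same position and velocity coincide. -/
theorem IsGeo.unique (hg : IsMetric g) {c c' d d' : ℝ → Space n} (hc : IsGeo g c c')
    (hd : IsGeo g d d') (h0 : c 0 = d 0) (h0' : c' 0 = d' 0) : c = d ∧ c' = d' := by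
  have key : ∀ t, (c t, c' t) = (d t, d' t) := by
    intro t
    set P := fun s => (c s, c' s)
    set Q := fun s => (d s, d' s)
    have hP : ∀ s, HasDerivAt P (sprayF g (P s)) s := fun s => (hc s).1.prodMk (hc s).2
    have hQ : ∀ s, HasDerivAt Q (sprayF g (Q s)) s := fun s => (hd s).1.prodMk (hd s).2
    set T := |t| + 1
    have hPc : Continuous P := continuous_iff_continuousAt.2 fun s => (hP s).continuousAt
    have hQc : Continuous Q := continuous_iff_continuousAt.2 fun s => (hQ s).continuousAt
    obtain ⟨R, hR⟩ := ((isCompact_Icc (a := -T) (b := T)).image hPc).union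
      ((isCompact_Icc (a := -T) (b := T)).image hQc) |>.isBounded.subset_closedBall 0
    have hF : ContDiff ℝ 1 (sprayF g) :=
      (contDiff_snd.prodMk (((contDiff_gam hg).comp
        (contDiff_fst.prodMk (contDiff_snd.prodMk contDiff_snd))).neg)).of_le (by simp)
    obtain ⟨K, hK⟩ := hF.contDiffOn.exists_lipschitzOnWith one_ne_zero
      (convex_closedBall (0 : Space n × Space n) R) (isCompact_closedBall _ _)
    have ht : t ∈ Icc (-T) T := ⟨by linarith [neg_abs_le t], by linarith [le_abs_self t]⟩
    exact ODE_solution_unique_of_mem_Icc (v := fun _ => sprayF g)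
      (s := fun _ => Metric.closedBall 0 R) (fun _ _ => hK) (t₀ := 0)
      ⟨by linarith [abs_nonneg t], by linarith [abs_nonneg t]⟩ hPc.continuousOn (fun s _ => hP s)
      (fun s hs => hR (Or.inl (mem_image_of_mem P (Ioo_subset_Icc_self hs)))) hQc.continuousOn
      (fun s _ => hQ s) (fun s hs => hR (Or.inr (mem_image_of_mem Q (Ioo_subset_Icc_self hs))))
      (by simp [P, Q, h0, h0']) ht
  exact ⟨funext fun t => congrArg Prod.fst (key t), funext fun t => congrArg Prod.snd (key t)⟩

namespace JointCharts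

variable (hj : JointCharts g Exp Log)
include hj

theorem smooth_exp_at (x : Space n) : ContDiff ℝ ∞ (Exp x) :=
  hj.smooth_exp.comp (contDiff_const.prodMk contDiff_id)

theorem smooth_log_at (x : Space n) : ContDiff ℝ ∞ (Log x) :=
  hj.smooth_log.comp (contDiff_const.prodMk contDiff_id)

theorem chart (x : Space n) : Geo.Chart g x (Exp x) :=
  ⟨hj.smooth_exp_at x, hj.zero x, hj.iso x, hj.geo x⟩

theorem normalCharts : NormalCharts g := fun x =>
  ⟨Exp x, Log x, hj.smooth_exp_at x, hj.smooth_log_at x, hj.left x, hj.right x, hj.zero x,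
    hj.iso x, hj.geo x⟩

theorem log_self (x : Space n) : Log x x = 0 := by
  conv_lhs => arg 2; rw [← hj.zero x]
  exact hj.left x 0

theorem continuous_exp : Continuous fun p : Space n × Space n => Exp p.1 p.2 :=
  hj.smooth_exp.continuous

theorem continuous_log : Continuous fun p : Space n × Space n => Log p.1 p.2 :=
  hj.smooth_log.continuous

theorem hasFDerivAt_log (x y : Space n) : HasFDerivAt (Log x) (fderiv ℝ (Log x) y) y :=
  (((hj.smooth_log_at x).differentiable (by simp)) y).hasFDerivAt

theorem dExp_dLog (x y z : Space n) :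
    fderiv ℝ (Exp x) (Log x y) (fderiv ℝ (Log x) y z) = z := by
  have h1 : HasFDerivAt (Exp x ∘ Log x)
      ((fderiv ℝ (Exp x) (Log x y)).comp (fderiv ℝ (Log x) y)) y :=
    ((hj.chart x).hasFDerivAt _).comp y (hj.hasFDerivAt_log x y)
  rw [show Exp x ∘ Log x = id from funext (hj.right x)] at h1
  exact congrFun (congrArg DFunLike.coe (h1.unique (hasFDerivAt_id y))) z

theorem dLog_dExp (x u z : Space n) :
    fderiv ℝ (Log x) (Exp x u) (fderiv ℝ (Exp x) u z) = z := by
  have h1 : HasFDerivAt (Log x ∘ Exp x)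
      ((fderiv ℝ (Log x) (Exp x u)).comp (fderiv ℝ (Exp x) u)) u :=
    (hj.hasFDerivAt_log x (Exp x u)).comp u ((hj.chart x).hasFDerivAt u)
  rw [show Log x ∘ Exp x = id from funext (hj.left x)] at h1
  exact congrFun (congrArg DFunLike.coe (h1.unique (hasFDerivAt_id u))) z

/-- The metric at `x` in the linearised chart at `x`. -/
theorem metric_eq (x u v : Space n) :
    g x u v = inner ℝ (fderiv ℝ (Log x) x u) (fderiv ℝ (Log x) x v) := by
  have h := hj.iso x (fderiv ℝ (Log x) x u) (fderiv ℝ (Log x) x v)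
  have e := hj.dExp_dLog x x
  rw [hj.log_self] at e
  rwa [e, e] at h

theorem isGeo_exp (x u : Space n) :
    IsGeo g (fun t : ℝ => Exp x (t • u)) (Geo.Y (Exp x) u u) := fun t =>
  ⟨(hj.chart x).deriv_ray u t,
    ((hj.chart x).deriv_Y u u t).congr_deriv ((hj.chart x).geo_eq u t)⟩

/-- The velocity at the far end, seen from there, is minus the logarithm. -/
theorem log_vel (hg : IsMetric g) (x y : Space n) :
    fderiv ℝ (Exp y) 0 (Log y x) = -fderiv ℝ (Exp x) (Log x y) (Log x y) ∧
      ∀ t : ℝ, Exp y (t • Log y x) = Exp x ((1 - t) • Log x y) := by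
  set u := Log x y
  set w := fderiv ℝ (Log y) y (-fderiv ℝ (Exp x) u u)
  have hw : fderiv ℝ (Exp y) 0 w = -fderiv ℝ (Exp x) u u := by
    have e := hj.dExp_dLog y y (-fderiv ℝ (Exp x) u u)
    rwa [hj.log_self] at e
  have hd : IsGeo g (fun t : ℝ => Exp x ((1 - t) • u)) fun t => -Geo.Y (Exp x) u u (1 - t) := by
    intro t
    obtain ⟨h1, h2⟩ := hj.isGeo_exp x u (1 - t)
    have hs : HasDerivAt (fun s : ℝ => 1 - s) (-1) t := (hasDerivAt_id t).const_sub 1
    refine ⟨(h1.scomp t hs).congr_deriv (by simp), ((h2.scomp t hs).neg).congr_deriv ?_⟩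
    simp only [neg_smul, one_smul, neg_neg]
    rw [show -Geo.Y (Exp x) u u (1 - t) = (-1 : ℝ) • Geo.Y (Exp x) u u (1 - t) by simp,
      gam_smul₁, gam_smul₂, smul_smul]
    norm_num
  obtain ⟨heq, -⟩ := (hj.isGeo_exp y w).unique hg hd
    (by simp [hj.zero, u, hj.right]) (by simp [Geo.Y, hw])
  have hwx : Log y x = w := by
    have h1 := congrFun heq 1
    simp only [one_smul, sub_self, zero_smul, hj.zero] at h1
    rw [← h1, hj.left]
  exact ⟨by rw [hwx, hw], fun t => by rw [hwx]; exact congrFun heq t⟩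

/-- The same geodesic from its other end. -/
theorem exp_reverse (hg : IsMetric g) (x y : Space n) (t : ℝ) :
    Exp y (t • Log y x) = Exp x ((1 - t) • Log x y) :=
  (hj.log_vel hg x y).2 t

theorem smooth_psi : ContDiff ℝ ∞ fun p : Space n × Space n => psi Log p.1 p.2 :=
  (hj.smooth_log.norm_sq ℝ).div_const 2

theorem smooth_psi_at (x : Space n) : ContDiff ℝ ∞ (psi Log x) :=
  ((hj.smooth_log_at x).norm_sq ℝ).div_const 2

/-- The derivative of half the squared distance is the radial velocity. -/
theorem psi_deriv (hg : IsMetric g) (x y w : Space n) :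
    fderiv ℝ (psi Log x) y w = g y (fderiv ℝ (Exp x) (Log x y) (Log x y)) w := by
  have h1 : HasFDerivAt (psi Log x)
      ((innerSL ℝ (Log x y)).comp (fderiv ℝ (Log x) y)) y := by
    have h2 := ((hj.hasFDerivAt_log x y).norm_sq).mul_const (1 / 2 : ℝ)
    rw [show psi Log x = fun z => ‖Log x z‖ ^ 2 * (1 / 2 : ℝ) from funext fun z => by simp [psi]; ring]
    refine h2.congr_fderiv ?_
    ext z
    simp
  rw [h1.fderiv]
  have := (hj.chart x).gauss_lemma hg (Log x y) (fderiv ℝ (Log x) y w)
  rw [hj.right, hj.dExp_dLog] at this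
  simp [this]

theorem grad_psi (hg : IsMetric g) (x y : Space n) :
    gGrad g (psi Log x) y = fderiv ℝ (Exp x) (Log x y) (Log x y) := by
  by_contra hne
  set d := gGrad g (psi Log x) y - fderiv ℝ (Exp x) (Log x y) (Log x y)
  have h1 := hg.pos y d (sub_ne_zero.2 hne)
  have h2 : g y d d = 0 := by
    simp only [d, map_sub, sub_apply, gGrad_dual hg, hj.psi_deriv hg]
    ring
  linarith

theorem grad_psi_sq (hg : IsMetric g) (x y : Space n) :
    g y (gGrad g (psi Log x) y) (gGrad g (psi Log x) y) = 2 * psi Log x y := by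
  have := (hj.chart x).gauss_lemma hg (Log x y) (Log x y)
  rw [hj.right, real_inner_self_eq_norm_sq] at this
  rw [hj.grad_psi hg, this, psi]
  ring

/-- The distance is symmetric. -/
theorem psi_symm (hg : IsMetric g) (x y : Space n) : psi Log y x = psi Log x y := by
  have h := (hj.chart y).speed hg (Log y x) 0
  rw [zero_smul, hj.zero, Geo.Y, zero_smul, (hj.log_vel hg x y).1, real_inner_self_eq_norm_sq] at h
  have h2 := (hj.chart x).gauss_lemma hg (Log x y) (Log x y)
  rw [hj.right, real_inner_self_eq_norm_sq] at h2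
  simp only [map_neg, neg_apply, neg_neg, h2] at h
  simp [psi, h]

omit hj in
theorem psi_nonneg (x y : Space n) : 0 ≤ psi Log x y := by
  unfold psi; positivity

theorem compact_psi (x : Space n) (M : ℝ) : IsCompact {y | psi Log x y ≤ M} := by
  refine ((isCompact_closedBall (0 : Space n) (Real.sqrt (2 * M))).image
    (hj.smooth_exp_at x).continuous).of_isClosed_subset
      (isClosed_le (hj.smooth_psi_at x).continuous continuous_const) fun y hy => ⟨Log x y, ?_, hj.right x y⟩
  rw [mem_closedBall_zero_iff]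
  refine Real.le_sqrt_of_sq_le ?_
  simp only [psi, Set.mem_ofPred_eq] at hy
  linarith

/-- Hessian comparison. -/
theorem hess_psi (hg : IsMetric g) (hs : SecBound g 0) (x y v : Space n) :
    g y v v ≤ gHess g (psi Log x) y v v := by
  set G : Space n → Space n := fun z => fderiv ℝ (Exp x) (Log x z) (Log x z)
  have hG : gGrad g (psi Log x) = G := funext (hj.grad_psi hg x)
  have h := hj.chart x
  set u := Log x y
  set w := fderiv ℝ (Log x) y v
  have hY : Geo.Y (Exp x) u w 1 = v := by simp [Geo.Y, u, w, hj.dExp_dLog]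
  have hGd : DifferentiableAt ℝ G (Exp x u) :=
    ((((h.contDiff_D).comp (hj.smooth_log_at x)).clm_apply (hj.smooth_log_at x)).differentiable
      (by simp)) _
  have hcov : cov g G (Exp x u) (Geo.Y (Exp x) u w 1) =
      Geo.Y (Exp x) u w 1 + Geo.DY g (Exp x) u w 1 := by
    have h1 : HasDerivAt (fun s : ℝ => Exp x (u + s • w)) (Geo.Y (Exp x) u w 1) 0 := by
      refine ((h.hasFDerivAt _).comp_hasDerivAt (0 : ℝ) (Geo.hasDerivAt_line u w 0)).congr_deriv ?_
      simp [Geo.Y]
    have h2 : HasDerivAt (fun s : ℝ => fderiv ℝ (Exp x) (u + s • w) (u + s • w))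
        (Geo.Y' (Exp x) u w 1 + Geo.Y (Exp x) u w 1) 0 := by
      refine (((h.hasFDerivAt_D _).comp_hasDerivAt (0 : ℝ) (Geo.hasDerivAt_line u w 0)).clm_apply
        (Geo.hasDerivAt_line u w 0)).congr_deriv ?_
      simp [Geo.Y, Geo.Y', h.symm2 u w u]
    have h3 := hGd.hasFDerivAt.comp_hasDerivAt_of_eq (0 : ℝ) h1 (by simp)
    have h4 : fderiv ℝ G (Exp x u) (Geo.Y (Exp x) u w 1) =
        Geo.Y' (Exp x) u w 1 + Geo.Y (Exp x) u w 1 := by
      refine h3.unique ?_
      rw [show G ∘ (fun s : ℝ => Exp x (u + s • w)) =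
        fun s : ℝ => fderiv ℝ (Exp x) (u + s • w) (u + s • w)
        from funext fun s => by simp only [G, Function.comp_apply, hj.left x (u + s • w)]]
      exact h2
    rw [cov, h4, show G (Exp x u) = Geo.Y (Exp x) u u 1 from by simp [G, hj.left, Geo.Y],
      gam_symm hg, Geo.DY, one_smul]
    abel
  have h1 := expand_one hg h le_rfl hs u w
  rw [hY, hj.right] at hcov h1
  rw [← gHess_eq hg (hj.smooth_psi_at x), hG, hcov, map_add, add_apply]
  linarith

end JointCharts

end

end Vale.Agent.P219.Six
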