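import Vale.Agent.P219.Six.Geo.Basic

/-!
# The Jacobian of the normal coordinates: lower bound, symmetry and polar integration
-/

open MeasureTheory Set Filter Topology
open scoped ENNReal ContDiff RealInnerProductSpace

namespace Vale.Agent.P219.Six

open Vale.Agent.P219 Vale.Agent.P219.Univ Vale.Agent.P219.Univ.Geo

noncomputable section

variable {n : ℕ} {g : MetricField n} {Exp Log : Space n → Space n → Space n}

/-- The matrix of a form given by two linear maps. -/
theorem inner_matrix (P Q : Space n →L[ℝ] Space n) :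
    (Matrix.of fun i j : Fin n => inner ℝ (P (EuclideanSpace.single i (1 : ℝ)))
      (Q (EuclideanSpace.single j (1 : ℝ)))).det = P.det * Q.det := by
  set b := (EuclideanSpace.basisFun (Fin n) ℝ).toBasis
  have hb : ∀ L : Space n →L[ℝ] Space n, ∀ i j,
      LinearMap.toMatrix b b (L : Space n →ₗ[ℝ] Space n) i j = L (EuclideanSpace.single j (1 : ℝ)) i :=
    fun L i j => by simp [LinearMap.toMatrix_apply, b]
  have e : (Matrix.of fun i j : Fin n => inner ℝ (P (EuclideanSpace.single i (1 : ℝ)))
      (Q (EuclideanSpace.single j (1 : ℝ)))) =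
      (LinearMap.toMatrix b b (P : Space n →ₗ[ℝ] Space n)).transpose *
        LinearMap.toMatrix b b (Q : Space n →ₗ[ℝ] Space n) := by
    ext i j
    simp only [Matrix.of_apply, Matrix.mul_apply, Matrix.transpose_apply, hb]
    simp [PiLp.inner_apply, mul_comm]
  rw [e, Matrix.det_mul, Matrix.det_transpose, LinearMap.det_toMatrix, LinearMap.det_toMatrix]

/-- An expanding linear map has determinant at least one in absolute value. -/
theorem one_le_det {L : Space n →L[ℝ] Space n} (h : ∀ v, ‖v‖ ≤ ‖L v‖) : 1 ≤ |L.det| := by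
  have hi : Function.Injective (L : Space n →ₗ[ℝ] Space n) :=
    (injective_iff_map_eq_zero _).2 fun v hv => norm_le_zero_iff.1 ((h v).trans (by
      rw [show L v = 0 from hv, norm_zero]))
  have hsub : Metric.ball (0 : Space n) 1 ⊆ L '' Metric.ball (0 : Space n) 1 := fun z hz => by
    obtain ⟨v, rfl⟩ := (LinearMap.injective_iff_surjective (f := (L : Space n →ₗ[ℝ] Space n))).1 hi z
    exact ⟨v, mem_ball_zero_iff.2 ((h v).trans_lt (mem_ball_zero_iff.1 hz)), rfl⟩
  have hm := measure_mono (μ := (volume : Measure (Space n))) hsub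
  rw [Measure.addHaar_image_continuousLinearMap] at hm
  have h1 : ENNReal.ofReal 1 ≤ ENNReal.ofReal |L.det| := by
    rw [ENNReal.ofReal_one]
    refine (ENNReal.mul_le_mul_iff_left ?_ ?_).1 (le_trans (le_of_eq (one_mul _)) hm)
    · exact (Metric.measure_ball_pos volume 0 one_pos).ne'
    · exact measure_ball_lt_top.ne
  exact (ENNReal.ofReal_le_ofReal_iff (abs_nonneg _)).1 h1

namespace JointCharts

variable (hj : JointCharts g Exp Log)
include hj

theorem dens_eq (x : Space n) : dens g x = |(fderiv ℝ (Log x) x).det| := by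
  rw [dens]
  simp only [hj.metric_eq x, inner_matrix]
  rw [Real.sqrt_mul_self_eq_abs]

theorem continuous_dens : Continuous (dens g) := by
  rw [show dens g = fun y => |(fderiv ℝ (Log y) y).det| from funext hj.dens_eq]
  have hd : Continuous fun y => fderiv ℝ (Log y) y :=
    (ContDiff.fderiv (f := fun (y : Space n) (z : Space n) => Log y z) (m := ∞) (n := ∞)
      hj.smooth_log contDiff_id (by simp)).continuous
  exact (ContinuousLinearMap.continuous_det.comp hd).abs

theorem dLog_det (x y : Space n) :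
    (fderiv ℝ (Exp x) (Log x y)).det * (fderiv ℝ (Log x) y).det = 1 := by
  have e : (fderiv ℝ (Exp x) (Log x y) : Space n →ₗ[ℝ] Space n).comp
      (fderiv ℝ (Log x) y : Space n →ₗ[ℝ] Space n) = LinearMap.id :=
    LinearMap.ext fun z => hj.dExp_dLog x y z
  rw [ContinuousLinearMap.det, ContinuousLinearMap.det, ← LinearMap.det_comp, e, LinearMap.det_id]

theorem jac_eq (x u : Space n) :
    jac g Exp x u = |((fderiv ℝ (Log (Exp x u)) (Exp x u)).comp (fderiv ℝ (Exp x) u)).det| := by
  rw [jac, hj.dens_eq, ← abs_mul]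
  congr 1
  exact (LinearMap.det_comp _ _).symm

/-- The Jacobi determinant is at least the Euclidean one. -/
theorem one_le_jac (hg : IsMetric g) (hs : SecBound g 0) (x u : Space n) :
    1 ≤ jac g Exp x u := by
  rw [hj.jac_eq]
  refine one_le_det fun w => ?_
  have h := hj.chart x
  set f : ℝ → ℝ := fun t => g (Exp x (t • u)) (Geo.Y (Exp x) u w t) (Geo.Y (Exp x) u w t)
  have hd : ∀ t, HasDerivAt f
      (2 * g (Exp x (t • u)) (Geo.DY g (Exp x) u w t) (Geo.Y (Exp x) u w t)) t := fun t => by
    refine (hasDerivAt_g hg (h.deriv_ray u t) (h.deriv_Y u w t) (h.deriv_Y u w t)).congr_deriv ?_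
    rw [hg.symm _ (Geo.Y (Exp x) u w t) (Geo.Y' (Exp x) u w t + _)]
    simp only [Geo.DY]
    ring
  have hmono : MonotoneOn f (Icc 0 1) := by
    refine monotoneOn_of_deriv_nonneg (convex_Icc 0 1)
      (fun t _ => (hd t).continuousAt.continuousWithinAt)
      (fun t _ => (hd t).differentiableAt.differentiableWithinAt) fun t ht => ?_
    rw [(hd t).deriv]
    rw [interior_Icc] at ht
    have h1 := expand_one hg h le_rfl hs (t • u) w
    have e : Geo.DY g (Exp x) (t • u) w 1 = t • Geo.DY g (Exp x) u w t := by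
      simp [Geo.DY, Geo.Y, Geo.Y', gam_smul₁, smul_add]
    rw [e, show Geo.Y (Exp x) (t • u) w 1 = Geo.Y (Exp x) u w t by simp [Geo.Y], map_smul,
      smul_apply, smul_eq_mul] at h1
    have := nonneg_of_mul_nonneg_right h1 ht.1
    linarith
  have h1 := hmono (left_mem_Icc.2 zero_le_one) (right_mem_Icc.2 zero_le_one) zero_le_one
  simp only [f, Geo.Y, zero_smul, one_smul, hj.zero, hj.iso] at h1
  rw [hj.metric_eq (Exp x u), real_inner_self_eq_norm_sq, real_inner_self_eq_norm_sq] at h1
  exact (pow_le_pow_iff_left₀ (norm_nonneg _) (norm_nonneg _) two_ne_zero).1 h1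

theorem jac_pos (hg : IsMetric g) (hs : SecBound g 0) (x u : Space n) : 0 < jac g Exp x u :=
  one_pos.trans_le (hj.one_le_jac hg hs x u)

theorem continuous_jac (hg : IsMetric g) :
    Continuous fun p : Space n × Space n => jac g Exp p.1 p.2 := by
  have hd : Continuous fun p : Space n × Space n => fderiv ℝ (Exp p.1) p.2 :=
    (ContDiff.fderiv (f := fun (p : Space n × Space n) (u : Space n) => Exp p.1 u) (m := ∞) (n := ∞)
      (hj.smooth_exp.comp ((contDiff_fst.comp contDiff_fst).prodMk contDiff_snd))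
      contDiff_snd (by simp)).continuous
  exact ((contDiff_dens hg).continuous.comp hj.continuous_exp).mul
    ((ContinuousLinearMap.continuous_det.comp hd).abs)

/-- The two descriptions of the mixed second derivative of the squared distance. -/
theorem mixed (hg : IsMetric g) (x y u w : Space n) :
    inner ℝ (fderiv ℝ (Log y) x u) (fderiv ℝ (Log y) y w) =
      inner ℝ (fderiv ℝ (Log x) y w) (fderiv ℝ (Log x) x u) := by
  set Φ : Space n × Space n → ℝ := fun p => psi Log p.1 p.2
  have hΦ : ContDiff ℝ ∞ Φ := hj.smooth_psi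
  have hd : ∀ p, HasFDerivAt Φ (fderiv ℝ Φ p) p := fun p =>
    ((hΦ.differentiable (by simp)) p).hasFDerivAt
  have hdd : ∀ p, HasFDerivAt (fderiv ℝ Φ) (fderiv ℝ (fderiv ℝ Φ) p) p := fun p =>
    (((hΦ.fderiv_right (m := ∞) le_rfl).differentiable (by simp)) p).hasFDerivAt
  have hvel : ∀ a b z, fderiv ℝ (psi Log a) b z =
      -inner ℝ (Log b a) (fderiv ℝ (Log b) b z) := fun a b z => by
    have e := (hj.log_vel hg a b).1
    rw [hj.psi_deriv hg, ← neg_eq_iff_eq_neg.2 e, map_neg, neg_apply, hj.metric_eq]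
    have e2 := hj.dLog_dExp b 0 (Log b a)
    rw [hj.zero] at e2
    rw [e2]
  have hsnd : ∀ a b z, fderiv ℝ Φ (a, b) (0, z) = -inner ℝ (Log b a) (fderiv ℝ (Log b) b z) :=
    fun a b z => by
      have h1 : HasFDerivAt (psi Log a) ((fderiv ℝ Φ (a, b)).comp
          ((0 : Space n →L[ℝ] Space n).prod (ContinuousLinearMap.id ℝ (Space n)))) b :=
        (hd (a, b)).comp b ((hasFDerivAt_const a b).prodMk (hasFDerivAt_id b))
      rw [← hvel, h1.fderiv]
      rfl
  have hfst : ∀ a b z, fderiv ℝ Φ (a, b) (z, 0) = -inner ℝ (Log a b) (fderiv ℝ (Log a) a z) :=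
    fun a b z => by
      have h1 : HasFDerivAt (fun q => psi Log q b) ((fderiv ℝ Φ (a, b)).comp
          ((ContinuousLinearMap.id ℝ (Space n)).prod (0 : Space n →L[ℝ] Space n))) a :=
        HasFDerivAt.comp (g := Φ) (f := fun q : Space n => (q, b)) a (hd (a, b)) ((hasFDerivAt_id a).prodMk (hasFDerivAt_const b a))
      rw [← hvel, ← show (fun q => psi Log q b) = psi Log b from funext fun q => hj.psi_symm hg b q,
        h1.fderiv]
      rfl
  have hsym : fderiv ℝ (fderiv ℝ Φ) (x, y) (u, 0) (0, w) =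
      fderiv ℝ (fderiv ℝ Φ) (x, y) (0, w) (u, 0) :=
    (hΦ.contDiffAt.isSymmSndFDerivAt (by simp; exact WithTop.coe_le_coe.2 le_top)).eq _ _
  have h1 : fderiv ℝ (fderiv ℝ Φ) (x, y) (u, 0) (0, w) =
      -inner ℝ (fderiv ℝ (Log y) x u) (fderiv ℝ (Log y) y w) := by
    have e1 : HasDerivAt (fun s : ℝ => fderiv ℝ Φ (x + s • u, y) (0, w))
        (fderiv ℝ (fderiv ℝ Φ) (x, y) (u, 0) (0, w)) 0 := by
      have := ((hdd (x, y)).comp_hasDerivAt_of_eq (0 : ℝ)
        ((Geo.hasDerivAt_line x u 0).prodMk (hasDerivAt_const (0 : ℝ) y)) (by simp)).clm_apply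
        (hasDerivAt_const (0 : ℝ) ((0 : Space n), w))
      simpa using this
    refine e1.unique ?_
    simp only [hsnd]
    have := (((hj.hasFDerivAt_log y x).comp_hasDerivAt_of_eq (0 : ℝ) (Geo.hasDerivAt_line x u 0)
      (by simp)).inner ℝ (hasDerivAt_const (0 : ℝ) (fderiv ℝ (Log y) y w))).neg
    simpa [Pi.neg_def] using this
  have h2 : fderiv ℝ (fderiv ℝ Φ) (x, y) (0, w) (u, 0) =
      -inner ℝ (fderiv ℝ (Log x) y w) (fderiv ℝ (Log x) x u) := by
    have e1 : HasDerivAt (fun s : ℝ => fderiv ℝ Φ (x, y + s • w) (u, 0))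
        (fderiv ℝ (fderiv ℝ Φ) (x, y) (0, w) (u, 0)) 0 := by
      have := ((hdd (x, y)).comp_hasDerivAt_of_eq (0 : ℝ)
        ((hasDerivAt_const (0 : ℝ) x).prodMk (Geo.hasDerivAt_line y w 0)) (by simp)).clm_apply
        (hasDerivAt_const (0 : ℝ) (u, (0 : Space n)))
      simpa using this
    refine e1.unique ?_
    simp only [hfst]
    have := (((hj.hasFDerivAt_log x y).comp_hasDerivAt_of_eq (0 : ℝ) (Geo.hasDerivAt_line y w 0)
      (by simp)).inner ℝ (hasDerivAt_const (0 : ℝ) (fderiv ℝ (Log x) x u))).neg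
    simpa [Pi.neg_def] using this
  linarith

/-- The Jacobi determinant is symmetric. -/
theorem jac_symm (hg : IsMetric g) (x y : Space n) :
    jac g Exp x (Log x y) = jac g Exp y (Log y x) := by
  set b := fun i : Fin n => EuclideanSpace.single i (1 : ℝ)
  have hdet : (fderiv ℝ (Log y) x).det * (fderiv ℝ (Log y) y).det =
      (fderiv ℝ (Log x) x).det * (fderiv ℝ (Log x) y).det := by
    rw [← inner_matrix, ← inner_matrix]
    refine congrArg Matrix.det (Matrix.ext fun i j => ?_)
    simp only [Matrix.of_apply]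
    rw [hj.mixed hg, real_inner_comm]
  have e1 := hj.dLog_det x y
  have e2 := hj.dLog_det y x
  simp only [jac, hj.right, hj.dens_eq, ← abs_mul]
  congr 1
  linear_combination ((fderiv ℝ (Exp y) (Log y x)).det * (fderiv ℝ (Log x) x).det) * e1 -
    ((fderiv ℝ (Exp x) (Log x y)).det * (fderiv ℝ (Log y) y).det) * e2 +
    ((fderiv ℝ (Exp x) (Log x y)).det * (fderiv ℝ (Exp y) (Log y x)).det) * hdet

end JointCharts

end

end Vale.Agent.P219.Six
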